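import Mathlib
import Vale.Agent.Lib.P243.CapMain
import Vale.Agent.Lib.P243.R3.Defs
open MeasureTheory Set Vale.Agent.Lib.P243

/-!
Job P243-R3-J9 (backup copy by helper30, in its own namespace `H30` so that it cannot clash with
the other copies of the same lemma): a gain point from a chord-length inequality along a ray, in
the model space `ℝ × (ℝ × ℝ)` (first coordinate = height).
-/

namespace Vale.Agent.Lib.P243.R3.H30

/-- The chord over `o` is at least as long as a segment of `K` lying over `o`. -/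
theorem M3g_le_len {K : Set (ℝ × (ℝ × ℝ))} (hK : IsCompact K) (hc : Convex ℝ K)
    {z0 l : ℝ} {o : ℝ × ℝ} (hl : 0 < l) (h0 : (z0, o) ∈ K) (h1 : (z0 + l, o) ∈ K) :
    l ≤ Cap.len K o := by
  have hfc : Convex ℝ (Cap.fib K o) := by
    intro a ha b hb θ1 θ2 hθ1 hθ2 hsum
    have hab := hc ha hb hθ1 hθ2 hsum
    have hoo : θ1 • o + θ2 • o = o := by rw [← add_smul, hsum, one_smul]
    have e : θ1 • ((a, o) : ℝ × (ℝ × ℝ)) + θ2 • ((b, o) : ℝ × (ℝ × ℝ))
        = (θ1 • a + θ2 • b, o) := by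
      calc θ1 • ((a, o) : ℝ × (ℝ × ℝ)) + θ2 • ((b, o) : ℝ × (ℝ × ℝ))
          = (θ1 • a + θ2 • b, θ1 • o + θ2 • o) := rfl
        _ = (θ1 • a + θ2 • b, o) := by rw [hoo]
    rw [e] at hab
    exact hab
  have hsub : Icc z0 (z0 + l) ⊆ Cap.fib K o := hfc.ordConnected.out h0 h1
  have hle : ENNReal.ofReal l ≤ volume (Cap.fib K o) := by
    have hv : volume (Icc z0 (z0 + l)) = ENNReal.ofReal l := by
      rw [Real.volume_Icc]
      congr 1
      ring
    rw [← hv]
    exact measure_mono hsub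
  have h2 := ENNReal.toReal_mono (Cap.fib_fin hK o) hle
  rw [ENNReal.toReal_ofReal hl.le] at h2
  exact h2

theorem M3g_gain_of_chord {K : Set (ℝ × (ℝ × ℝ))} (hK : IsCompact K) (hc : Convex ℝ K)
    {z0 l : ℝ} {o : ℝ × ℝ} (hl : 0 < l) (h0 : (z0, o) ∈ K) (h1 : (z0 + l, o) ∈ K)
    {ξ : ℝ × ℝ} (hξ : ξ ∈ Prod.snd '' K) {s : ℝ} (hs0 : 0 ≤ s) (hs1 : s ≤ 1)
    (h : (1 - s) * l + s * Cap.len K ξ < Cap.len K (o + s • (ξ - o))) :
    ∃ y ∈ Prod.snd '' K, ∃ t : ℝ, 0 < t ∧ t < Cap.len K y ∧
      (l ≤ t ∨ ∀ q ∈ Prod.snd '' K, y ≠ o + (1 - t / l) • (q - o)) := by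
  have hlo : l ≤ Cap.len K o := M3g_le_len hK hc hl h0 h1
  have ho : o ∈ Prod.snd '' K := ⟨(z0, o), h0, rfl⟩
  have hPc : Convex ℝ (Prod.snd '' K) := by
    have := hc.linear_image (LinearMap.snd ℝ ℝ (ℝ × ℝ))
    simpa using this
  have hfξ : 0 ≤ Cap.len K ξ := Cap.len_nonneg ξ
  set y : ℝ × ℝ := o + s • (ξ - o) with hy
  have hyP : y ∈ Prod.snd '' K := by
    have hmem := hPc ho hξ (sub_nonneg.2 hs1) hs0 (by ring)
    have e : (1 - s) • o + s • ξ = y := by
      rw [hy]
      module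
    rw [e] at hmem
    exact hmem
  set A : ℝ := (1 - s) * l + s * Cap.len K ξ with hA
  have hA0 : 0 ≤ A := by
    have h1s : 0 ≤ 1 - s := sub_nonneg.2 hs1
    positivity
  refine ⟨y, hyP, (A + Cap.len K y) / 2, by linarith, by linarith, ?_⟩
  set t : ℝ := (A + Cap.len K y) / 2 with ht
  have hAt : A < t := by rw [ht]; linarith
  by_cases hlt' : l ≤ t
  · exact Or.inl hlt'
  · right
    have hlt : t < l := not_le.1 hlt'
    intro q hq heq
    have ht0 : 0 < t := by rw [ht]; linarith
    set μ : ℝ := 1 - t / l with hμ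
    have hμl : μ * l = l - t := by
      rw [hμ]
      field_simp
    have hμ0 : 0 < μ := by
      rw [hμ]
      have : t / l < 1 := (div_lt_one hl).2 hlt
      linarith
    -- from `A < t`
    have hkey : μ * l < s * (l - Cap.len K ξ) := by
      have : A < l - μ * l := by rw [hμl]; linarith
      rw [hA] at this
      linarith
    have hs : 0 < s := by
      rcases hs0.lt_or_eq with hpos | hzero
      · exact hpos
      · exfalso
        rw [← hzero] at hkey
        have : 0 < μ * l := mul_pos hμ0 hl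
        linarith
    have hμs : μ ≤ s := by
      have h1 : s * (l - Cap.len K ξ) ≤ s * l := by
        apply mul_le_mul_of_nonneg_left _ hs.le
        linarith
      have h2 : μ * l < s * l := lt_of_lt_of_le hkey h1
      exact le_of_lt (lt_of_mul_lt_mul_right h2 hl.le)
    have hθ0 : 0 ≤ μ / s := div_nonneg hμ0.le hs.le
    have hθ1 : μ / s ≤ 1 := (div_le_one hs).2 hμs
    have hθs : μ / s * s = μ := div_mul_cancel₀ μ hs.ne'
    have hsm : s • (ξ - o) = μ • (q - o) := by
      have : o + s • (ξ - o) = o + μ • (q - o) := heq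
      exact add_left_cancel this
    have hξeq : ξ = (1 - μ / s) • o + (μ / s) • q := by
      have h3 : ξ - o = (μ / s) • (q - o) := by
        have h4 : s⁻¹ • (s • (ξ - o)) = s⁻¹ • (μ • (q - o)) := by rw [hsm]
        rw [smul_smul, inv_mul_cancel₀ hs.ne', one_smul, smul_smul] at h4
        rw [h4]
        congr 1
        field_simp
      have h5 : ξ = o + (μ / s) • (q - o) := by
        rw [← h3]
        abel
      rw [h5]
      module
    have hcc := Cap.len_concave hK hc ho hq (μ / s) hθ0 hθ1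
    rw [← hξeq] at hcc
    have hfq : 0 ≤ Cap.len K q := Cap.len_nonneg q
    have h6 : (1 - μ / s) * l ≤ Cap.len K ξ := by
      have h7 : (1 - μ / s) * l ≤ (1 - μ / s) * Cap.len K o :=
        mul_le_mul_of_nonneg_left hlo (sub_nonneg.2 hθ1)
      have h8 : 0 ≤ μ / s * Cap.len K q := mul_nonneg hθ0 hfq
      linarith
    have h9 : s * ((1 - μ / s) * l) ≤ s * Cap.len K ξ := mul_le_mul_of_nonneg_left h6 hs.le
    have h10 : s * ((1 - μ / s) * l) = s * l - μ * l := by
      have : s * ((1 - μ / s) * l) = s * l - (μ / s * s) * l := by ring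
      rw [this, hθs]
    rw [h10] at h9
    linarith
end Vale.Agent.Lib.P243.R3.H30
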